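import Crest.Agent.SL.Geom

set_option autoImplicit false
set_option linter.unusedSectionVars false

open MeasureTheory Metric Set Module ProbabilityTheory
open scoped ENNReal RealInnerProductSpace

namespace Crest.Agent.SL

variable {X : Type*} [NormedAddCommGroup X] [InnerProductSpace ℝ X] [FiniteDimensional ℝ X]
  [MeasurableSpace X] [BorelSpace X]

lemma resample (n : X) (hn : ‖n‖ = 1) :
    ((stdGaussian X).prod (gaussianReal 0 1)).map
      (fun p : X × ℝ => p.1 - ⟪p.1, n⟫ • n + p.2 • n) = stdGaussian X := by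
  apply Measure.ext_of_charFun
  ext t
  rw [charFun_apply, integral_map (by fun_prop) (by fun_prop)]
  have h1 : ∀ p : X × ℝ, Complex.exp (⟪p.1 - ⟪p.1, n⟫ • n + p.2 • n, t⟫ * Complex.I) =
      Complex.exp (⟪p.1, t - ⟪n, t⟫ • n⟫ * Complex.I) *
        Complex.exp ((⟪n, t⟫ : ℝ) * p.2 * Complex.I) := by
    intro p
    rw [← Complex.exp_add]
    congr 1
    simp only [inner_add_left, inner_sub_left, inner_sub_right, real_inner_smul_left,
      real_inner_smul_right]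
    push_cast; ring
  simp_rw [h1]
  rw [integral_prod_mul (fun a : X => Complex.exp (⟪a, t - ⟪n, t⟫ • n⟫ * Complex.I))
    (fun x : ℝ => Complex.exp ((⟪n, t⟫ : ℝ) * x * Complex.I)), ← charFun_apply,
    ← charFun_apply_real, charFun_stdGaussian, charFun_stdGaussian, charFun_gaussianReal,
    ← Complex.exp_add]
  congr 1
  have h2 : ‖t - ⟪n, t⟫ • n‖ ^ 2 = ‖t‖ ^ 2 - ⟪n, t⟫ ^ 2 := by
    rw [norm_sub_sq_real, norm_smul, hn, real_inner_smul_right, real_inner_comm, Real.norm_eq_abs,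
      mul_one, sq_abs]; ring
  have h3 : ((‖t - ⟪n, t⟫ • n‖ : ℝ) : ℂ) ^ 2 = (‖t‖ : ℂ) ^ 2 - (⟪n, t⟫ : ℝ) ^ 2 := by
    exact_mod_cast h2
  rw [h3]; simp; ring

lemma gauss_le_vol (S : Set ℝ) : gaussianReal 0 1 S ≤ 2⁻¹ * volume S := by
  rw [gaussianReal_apply 0 one_ne_zero, ← setLIntegral_const]
  refine lintegral_mono fun x => ?_
  rw [gaussianPDF, gaussianPDFReal]
  have : (2⁻¹ : ℝ≥0∞) = ENNReal.ofReal 2⁻¹ := by
    rw [ENNReal.ofReal_inv_of_pos two_pos]; simp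
  rw [this]
  apply ENNReal.ofReal_le_ofReal
  have h1 : Real.exp (-(x - 0) ^ 2 / (2 * ((1 : NNReal) : ℝ))) ≤ 1 := by
    rw [Real.exp_le_one_iff]; simp only [NNReal.coe_one]; nlinarith [sq_nonneg (x - 0)]
  have h2 : (2 : ℝ) ≤ √(2 * Real.pi * ((1 : NNReal) : ℝ)) := by
    apply Real.le_sqrt_of_sq_le; simp only [NNReal.coe_one]; nlinarith [Real.pi_gt_three]
  calc _ ≤ (√(2 * Real.pi * ((1 : NNReal) : ℝ)))⁻¹ * 1 := by gcongr
    _ ≤ 2⁻¹ := by rw [mul_one]; exact inv_anti₀ two_pos h2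

lemma gauss_slab (c : ℝ) {δ η : ℝ} (hδ : 0 < δ) :
    ENNReal.ofReal δ * gaussianReal 0 1 {x | |c + x * δ| ≤ η} ≤ ENNReal.ofReal η := by
  have h1 : {x | |c + x * δ| ≤ η} ⊆ Icc ((-η - c) / δ) ((η - c) / δ) := by
    intro x hx
    have := abs_le.mp (show |c + x * δ| ≤ η from hx)
    constructor
    · rw [div_le_iff₀ hδ]; linarith
    · rw [le_div_iff₀ hδ]; linarith
  calc _ ≤ ENNReal.ofReal δ * (2⁻¹ * volume (Icc ((-η - c) / δ) ((η - c) / δ))) := by
        gcongr; exact (measure_mono h1).trans (gauss_le_vol _)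
    _ = _ := by
      have : (2⁻¹ : ℝ≥0∞) = ENNReal.ofReal 2⁻¹ := by
        rw [ENNReal.ofReal_inv_of_pos two_pos]; simp
      rw [Real.volume_Icc, this, ← ENNReal.ofReal_mul (by positivity),
        ← ENNReal.ofReal_mul hδ.le]
      congr 1; field_simp; ring

/-- slab around the hyperplane orthogonal to `v`. -/
def slab (v : X) (η : ℝ) : Set X := {a | |⟪a, v⟫| ≤ η}

lemma measurableSet_slab (v : X) (η : ℝ) : MeasurableSet (slab v η) :=
  measurableSet_le (f := fun a : X => |⟪a, v⟫|) (by fun_prop) measurable_const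

lemma row_lemma (V : Submodule ℝ X) {D : Set X} (hD : MeasurableSet D)
    (hV : ∀ a, ∀ u ∈ Vᗮ, a + u ∈ D ↔ a ∈ D) (v : X) (η : ℝ) :
    ENNReal.ofReal (dV V v) * stdGaussian X (D ∩ slab v η) ≤
      ENNReal.ofReal η * stdGaussian X D := by
  rcases (dV_nonneg V v).eq_or_lt with h0 | hδ
  · simp [← h0]
  set δ := dV V v with hδdef
  set u := v - V.starProjection v with hu
  have huV : u ∈ Vᗮ := V.sub_starProjection_mem_orthogonal v
  have hnu : ‖u‖ = δ := rfl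
  set n := δ⁻¹ • u with hndef
  have hn : ‖n‖ = 1 := by
    rw [hndef, norm_smul, hnu, Real.norm_eq_abs, abs_of_pos (inv_pos.mpr hδ)]; field_simp
  have hnV : n ∈ Vᗮ := Vᗮ.smul_mem _ huV
  have hnv : ⟪n, v⟫ = δ := by
    have e : v = V.starProjection v + u := by rw [hu]; abel
    have h1 : ⟪u, V.starProjection v⟫ = 0 :=
      (V.mem_orthogonal' u).mp huV _ (V.starProjection_apply_mem v)
    rw [hndef, real_inner_smul_left]
    conv_lhs => rw [e]
    rw [inner_add_right, h1, real_inner_self_eq_norm_sq, hnu]; field_simp; ring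
  have hmeas : Measurable (fun p : X × ℝ => p.1 - ⟪p.1, n⟫ • n + p.2 • n) := by fun_prop
  conv_lhs => rw [← resample n hn]
  rw [Measure.map_apply hmeas (hD.inter (measurableSet_slab v η)),
    Measure.prod_apply (hmeas (hD.inter (measurableSet_slab v η))),
    ← lintegral_const_mul' _ _ ENNReal.ofReal_ne_top, ← setLIntegral_const,
    ← lintegral_indicator hD]
  refine lintegral_mono fun a => ?_
  have hmem : ∀ x : ℝ, a - ⟪a, n⟫ • n + x • n ∈ D ↔ a ∈ D := fun x => by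
    have := hV a ((x - ⟪a, n⟫) • n) (Vᗮ.smul_mem _ hnV)
    rw [← this]; congr! 1; rw [sub_smul]; abel
  by_cases ha : a ∈ D
  · rw [indicator_of_mem ha]
    refine le_trans ?_ (gauss_slab (⟪a - ⟪a, n⟫ • n, v⟫) hδ)
    gcongr
    intro x hx
    have := hx.2
    simp only [slab, mem_ofPred_eq, inner_add_left, real_inner_smul_left, hnv] at this
    exact this
  · rw [indicator_of_notMem ha]
    have : Prod.mk a ⁻¹' ((fun p : X × ℝ => p.1 - ⟪p.1, n⟫ • n + p.2 • n) ⁻¹' (D ∩ slab v η)) = ∅ := by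
      ext x; simp only [mem_preimage, mem_inter_iff, hmem, ha, false_and, mem_empty_iff_false]
    rw [this]; simp

lemma slab_bound (v : X) (η : ℝ) :
    ENNReal.ofReal ‖v‖ * stdGaussian X (slab v η) ≤ ENNReal.ofReal η := by
  have := row_lemma (⊥ : Submodule ℝ X) MeasurableSet.univ (by simp) v η
  simpa [dV] using this

lemma map_inner_std (v : X) :
    (stdGaussian X).map (fun a => ⟪a, v⟫) = gaussianReal 0 (‖v‖₊ ^ 2) := by
  have h := IsGaussian.map_eq_gaussianReal (μ := stdGaussian X) (innerSL ℝ v)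
  rw [integral_strongDual_stdGaussian, variance_dual_stdGaussian, innerSL_apply_norm] at h
  have e : (fun a : X => ⟪a, v⟫) = innerSL ℝ v := by
    ext a; simp [real_inner_comm]
  rw [e, h]; congr 1
  ext; simp

lemma exp_abs_inner (v : X) {r : ℝ} (hr : 0 < r) (hv : ‖v‖ ≤ r) :
    Integrable (fun a : X => Real.exp (|⟪a, v⟫| / r)) (stdGaussian X) ∧
      ∫ a, Real.exp (|⟪a, v⟫| / r) ∂(stdGaussian X) ≤ 4 := by
  have hm : AEMeasurable (fun a : X => ⟪a, v⟫) (stdGaussian X) := by fun_prop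
  have hi : ∀ t : ℝ, Integrable (fun a : X => Real.exp (t * ⟪a, v⟫)) (stdGaussian X) := fun t => by
    have := integrable_exp_mul_gaussianReal (μ := 0) (v := ‖v‖₊ ^ 2) t
    rw [← map_inner_std] at this
    exact (integrable_map_measure (by fun_prop) hm).mp this
  have hb : ∀ t : ℝ, t ^ 2 = (r⁻¹) ^ 2 → ∫ a, Real.exp (t * ⟪a, v⟫) ∂(stdGaussian X) ≤ 2 :=
    fun t ht => by
    have := mgf_gaussianReal (map_inner_std v) t
    rw [mgf] at this
    rw [this]
    have h1 : (0 : ℝ) * t + ((‖v‖₊ ^ 2 : NNReal) : ℝ) * t ^ 2 / 2 ≤ 1 / 2 := by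
      rw [ht]; push_cast
      have : ‖v‖ * r⁻¹ ≤ 1 := by rw [← div_eq_mul_inv, div_le_one hr]; exact hv
      have h0 : 0 ≤ ‖v‖ * r⁻¹ := by positivity
      nlinarith
    refine (Real.exp_le_exp.mpr h1).trans ?_
    have h2 : Real.exp (1 / 2) ^ 2 = Real.exp 1 := by rw [← Real.exp_nat_mul]; norm_num
    nlinarith [Real.exp_one_lt_d9, Real.exp_pos (1 / 2)]
  have hle : ∀ a : X, Real.exp (|⟪a, v⟫| / r) ≤
      Real.exp (r⁻¹ * ⟪a, v⟫) + Real.exp (-r⁻¹ * ⟪a, v⟫) := fun a => by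
    rcases abs_cases ⟪a, v⟫ with h | h
    · rw [h.1, div_eq_inv_mul]; linarith [Real.exp_pos (-r⁻¹ * ⟪a, v⟫)]
    · rw [h.1, show -⟪a, v⟫ / r = -r⁻¹ * ⟪a, v⟫ by ring]; linarith [Real.exp_pos (r⁻¹ * ⟪a, v⟫)]
  have hint : Integrable (fun a : X => Real.exp (|⟪a, v⟫| / r)) (stdGaussian X) :=
    ((hi r⁻¹).add (hi (-r⁻¹))).mono' (by fun_prop) (Filter.Eventually.of_forall fun a => by
      rw [Real.norm_eq_abs, abs_of_pos (Real.exp_pos _)]; exact hle a)
  refine ⟨hint, ?_⟩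
  calc _ ≤ ∫ a, (Real.exp (r⁻¹ * ⟪a, v⟫) + Real.exp (-r⁻¹ * ⟪a, v⟫)) ∂(stdGaussian X) :=
        integral_mono hint ((hi r⁻¹).add (hi (-r⁻¹))) hle
    _ ≤ 4 := by
      rw [integral_add (hi _) (hi _)]
      linarith [hb r⁻¹ rfl, hb (-r⁻¹) (by ring)]

lemma l1_tail {ι : Type*} [Fintype ι] (v : X) {r : ℝ} (hr : 0 < r) (hv : ‖v‖ ≤ r) :
    Measure.pi (fun _ : ι => stdGaussian X)
      {B | 3 * Fintype.card ι * r ≤ ∑ i, |⟪B i, v⟫|} ≤ (4⁻¹) ^ Fintype.card ι := by
  obtain ⟨h1, h2⟩ := exp_abs_inner v hr hv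
  set P := Measure.pi (fun _ : ι => stdGaussian X)
  have hint : Integrable (fun B : ι → X => ∏ i, Real.exp (|⟪B i, v⟫| / r)) P :=
    Integrable.fintype_prod (f := fun _ a => Real.exp (|⟪a, v⟫| / r)) fun _ => h1
  have hI : ∫ B, ∏ i, Real.exp (|⟪B i, v⟫| / r) ∂P ≤ 4 ^ Fintype.card ι := by
    rw [integral_fintype_prod_eq_pow (fun a : X => Real.exp (|⟪a, v⟫| / r))]
    exact pow_le_pow_left₀ (integral_nonneg fun a => (Real.exp_pos _).le) h2 _
  have hM := mul_meas_ge_le_integral_of_nonneg (μ := P)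
    (Filter.Eventually.of_forall fun B => Finset.prod_nonneg fun i _ => (Real.exp_pos _).le) hint
    ((16 : ℝ) ^ Fintype.card ι)
  have hsub : {B : ι → X | 3 * Fintype.card ι * r ≤ ∑ i, |⟪B i, v⟫|} ⊆
      {B | (16 : ℝ) ^ Fintype.card ι ≤ ∏ i, Real.exp (|⟪B i, v⟫| / r)} := by
    intro B hB
    simp only [mem_ofPred_eq] at hB ⊢
    rw [← Real.exp_sum, ← Finset.sum_div]
    have h3 : (16 : ℝ) ≤ Real.exp 3 := by
      have : Real.exp 3 = Real.exp 1 ^ 3 := by rw [← Real.exp_nat_mul]; norm_num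
      rw [this]
      calc (16 : ℝ) ≤ 2.7 ^ 3 := by norm_num
        _ ≤ _ := pow_le_pow_left₀ (by norm_num) (by linarith [Real.exp_one_gt_d9]) _
    calc (16 : ℝ) ^ Fintype.card ι ≤ Real.exp 3 ^ Fintype.card ι := by gcongr
      _ = Real.exp (3 * Fintype.card ι) := by rw [← Real.exp_nat_mul]; ring_nf
      _ ≤ _ := by rw [Real.exp_le_exp, le_div_iff₀ hr]; exact hB
  refine (measure_mono hsub).trans ?_
  rw [← ofReal_measureReal]
  have : (4⁻¹ : ℝ≥0∞) ^ Fintype.card ι = ENNReal.ofReal ((4⁻¹) ^ Fintype.card ι) := by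
    rw [ENNReal.ofReal_pow (by norm_num), ENNReal.ofReal_inv_of_pos (by norm_num)]; simp
  rw [this]
  apply ENNReal.ofReal_le_ofReal
  have h16 : (0 : ℝ) < 16 ^ Fintype.card ι := by positivity
  rw [← mul_le_mul_iff_right₀ h16]
  refine (hM.trans hI).trans (le_of_eq ?_)
  rw [← mul_pow]; norm_num

end Crest.Agent.SL
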