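import Mathlib

set_option autoImplicit false
set_option linter.unusedSectionVars false

open MeasureTheory Metric Set Module
open scoped ENNReal Pointwise

namespace Crest.Agent.SL

variable {X : Type*} [NormedAddCommGroup X] [InnerProductSpace ℝ X] [FiniteDimensional ℝ X]

/-- distance from `x` to the subspace `V`. -/
noncomputable def dV (V : Submodule ℝ X) (x : X) : ℝ := ‖x - V.starProjection x‖

lemma dV_nonneg (V : Submodule ℝ X) (x : X) : 0 ≤ dV V x := norm_nonneg _

lemma dV_eq (V : Submodule ℝ X) (x : X) : dV V x = ‖Vᗮ.starProjection x‖ := by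
  rw [Submodule.starProjection_orthogonal_val]; rfl

lemma dV_le_norm (V : Submodule ℝ X) (x : X) : dV V x ≤ ‖x‖ := by
  rw [dV_eq]; exact Submodule.norm_starProjection_apply_le _ _

lemma dV_add_le (V : Submodule ℝ X) (x y : X) : dV V (x + y) ≤ dV V x + ‖y‖ := by
  rw [dV_eq, dV_eq, map_add]
  exact (norm_add_le _ _).trans (by gcongr; exact Submodule.norm_starProjection_apply_le _ _)

lemma dV_smul (V : Submodule ℝ X) (t : ℝ) (x : X) : dV V (t • x) = |t| * dV V x := by
  rw [dV_eq, dV_eq, map_smul, norm_smul, Real.norm_eq_abs]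

lemma dV_of_mem (V : Submodule ℝ X) {x : X} (hx : x ∈ V) : dV V x = 0 := by
  unfold dV; rw [Submodule.starProjection_eq_self_iff.mpr hx]; simp

lemma dV_le_sub (V : Submodule ℝ X) (x : X) {z : X} (hz : z ∈ V) : dV V x ≤ ‖x - z‖ := by
  have := dV_add_le V z (x - z)
  rwa [dV_of_mem V hz, zero_add, add_sub_cancel] at this

@[fun_prop]
lemma continuous_dV (V : Submodule ℝ X) : Continuous (dV V) := by
  unfold dV; fun_prop

/-- the stretch map: multiplies the `V` component by `t`. -/
noncomputable def stretch (V : Submodule ℝ X) (t : ℝ) : X →ₗ[ℝ] X :=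
  t • (V.starProjection : X →ₗ[ℝ] X) + (Vᗮ.starProjection : X →ₗ[ℝ] X)

lemma det_stretch (V : Submodule ℝ X) (t : ℝ) :
    LinearMap.det (stretch V t) = t ^ finrank ℝ V := by
  have hc : IsCompl V Vᗮ := V.isCompl_orthogonal
  let e := V.prodEquivOfIsCompl Vᗮ hc
  have : stretch V t = (e : (V × Vᗮ) →ₗ[ℝ] X) ∘ₗ
      (LinearMap.prodMap (t • (LinearMap.id : V →ₗ[ℝ] V)) (LinearMap.id : Vᗮ →ₗ[ℝ] Vᗮ)) ∘ₗ
      (e.symm : X →ₗ[ℝ] (V × Vᗮ)) := by
    apply LinearMap.ext
    intro x
    obtain ⟨⟨a, b⟩, rfl⟩ := e.surjective x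
    have ha : V.starProjection (a : X) = a := Submodule.starProjection_eq_self_iff.mpr a.2
    have hb : Vᗮ.starProjection (b : X) = b := Submodule.starProjection_eq_self_iff.mpr b.2
    have ha' : Vᗮ.starProjection (a : X) = 0 := by
      rw [Submodule.starProjection_orthogonal_val, ha, sub_self]
    have hb' : V.starProjection (b : X) = 0 := by
      have := Submodule.starProjection_orthogonal_val (K := V) (b : X)
      rw [hb] at this
      have h2 : V.starProjection (b : X) = (b : X) - ((b : X) - V.starProjection (b : X)) := by abel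
      rw [h2, ← this, sub_self]
    simp [stretch, e, ha, hb']
  rw [this, LinearMap.det_conj, LinearMap.det_prodMap, LinearMap.det_smul]
  simp

variable [MeasurableSpace X] [BorelSpace X]

/-- the tube of radius `r` around `V`, inside the ball of radius `R`. -/
def tube (V : Submodule ℝ X) (R r : ℝ) : Set X := {x | ‖x‖ ≤ R ∧ dV V x ≤ r}

lemma measurableSet_tube (V : Submodule ℝ X) (R r : ℝ) : MeasurableSet (tube V R r) := by
  unfold tube
  exact (measurableSet_le measurable_norm measurable_const).inter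
    (measurableSet_le (continuous_dV V).measurable measurable_const)

lemma vol_tube (μ : Measure X) [μ.IsAddHaarMeasure] (V : Submodule ℝ X) {R r : ℝ} (hr : 0 < r)
    (hR : 0 < R) :
    μ (tube V R r) ≤ ENNReal.ofReal ((R / r) ^ finrank ℝ V * (2 * r) ^ finrank ℝ X) *
      μ (ball 0 1) := by
  have ht : 0 < R / r := by positivity
  have hsub : tube V R r ⊆ stretch V (R / r) '' closedBall 0 (2 * r) := by
    intro x hx
    refine ⟨(r / R) • V.starProjection x + Vᗮ.starProjection x, ?_, ?_⟩
    · rw [mem_closedBall_zero_iff]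
      have h1 : ‖(r / R) • V.starProjection x‖ ≤ r := by
        rw [norm_smul, Real.norm_eq_abs, abs_of_pos (by positivity)]
        have : ‖V.starProjection x‖ ≤ R := (Submodule.norm_starProjection_apply_le _ _).trans hx.1
        calc r / R * ‖V.starProjection x‖ ≤ r / R * R := by gcongr
          _ = r := by field_simp
      have h2 : ‖Vᗮ.starProjection x‖ ≤ r := by rw [← dV_eq]; exact hx.2
      linarith [norm_add_le ((r / R) • V.starProjection x) (Vᗮ.starProjection x)]
    · have ha : V.starProjection (V.starProjection x) = V.starProjection x :=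
        Submodule.starProjection_eq_self_iff.mpr (V.starProjection_apply_mem x)
      have hb : Vᗮ.starProjection (Vᗮ.starProjection x) = Vᗮ.starProjection x :=
        Submodule.starProjection_eq_self_iff.mpr (Vᗮ.starProjection_apply_mem x)
      have ha' : Vᗮ.starProjection (V.starProjection x) = 0 := by
        rw [Submodule.starProjection_orthogonal_val, ha, sub_self]
      have hb' : V.starProjection (Vᗮ.starProjection x) = 0 := by
        rw [Submodule.starProjection_orthogonal_val, map_sub, ha, sub_self]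
      have h1 : r / R * (R / r) = 1 := by field_simp
      simp only [stretch, LinearMap.add_apply, LinearMap.smul_apply, ContinuousLinearMap.coe_coe,
        map_add, map_smul, ha, hb, ha', hb', smul_zero, add_zero, zero_add, smul_smul, h1,
        one_smul]
      exact V.starProjection_add_starProjection_orthogonal x
  calc μ (tube V R r) ≤ μ (stretch V (R / r) '' closedBall 0 (2 * r)) := measure_mono hsub
    _ = _ := by
      rw [Measure.addHaar_image_linearMap, det_stretch, Measure.addHaar_closedBall _ _ (by positivity),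
        abs_of_pos (by positivity), ENNReal.ofReal_mul (by positivity), mul_assoc]

/-- averaging lemma. -/
lemma avg_ball (μ : Measure X) [μ.IsAddHaarMeasure] (ν : Measure X) [IsFiniteMeasure ν] {r : ℝ}
    {m : ℝ≥0∞} (hν : ∀ w, ν (closedBall w r) ≤ m) {S S' : Set X} (hS : MeasurableSet S)
    (hS' : MeasurableSet S') (hSS' : ∀ z ∈ S, ∀ w, dist z w ≤ r → w ∈ S') :
    ν S * μ (closedBall 0 r) ≤ m * μ S' := by
  have hm : MeasurableSet {p : X × X | p.1 ∈ S ∧ dist p.1 p.2 ≤ r} :=
    (measurable_fst hS).inter (measurableSet_le (measurable_fst.dist measurable_snd) measurable_const)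
  have h1 : ν S * μ (closedBall 0 r) = (ν.prod μ) {p : X × X | p.1 ∈ S ∧ dist p.1 p.2 ≤ r} := by
    rw [Measure.prod_apply hm, mul_comm, ← setLIntegral_const, ← lintegral_indicator hS]
    congr 1; ext z
    by_cases hz : z ∈ S
    · rw [indicator_of_mem hz, ← Measure.addHaar_closedBall_center μ z]
      congr 1; ext w; simp [hz, dist_comm]
    · rw [indicator_of_notMem hz]; simp [hz]
  rw [h1, Measure.prod_apply_symm hm, ← setLIntegral_const, ← lintegral_indicator hS']
  refine lintegral_mono fun w => ?_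
  by_cases hw : w ∈ S'
  · rw [indicator_of_mem hw]
    exact (measure_mono fun z hz => hz.2).trans (hν w)
  · rw [indicator_of_notMem hw]
    have : (fun x => (x, w)) ⁻¹' {p : X × X | p.1 ∈ S ∧ dist p.1 p.2 ≤ r} = ∅ := by
      ext z; simp only [mem_preimage, mem_ofPred_eq, mem_empty_iff_false, iff_false, not_and]
      intro hz h; exact hw (hSS' z hz w h)
    simp [this]

/-- mass of a tube around `s + V` for a measure with bounded ball masses. -/
lemma nu_tube (ν : Measure X) [IsFiniteMeasure ν] {r R : ℝ} (hr : 0 < r) (hrR : r ≤ R)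
    {m : ℝ≥0∞} (hν : ∀ w, ν (closedBall w (r / 2)) ≤ m) (V : Submodule ℝ X) (s : X) :
    ν {z | z - s ∈ tube V R r} ≤
      m * ENNReal.ofReal ((R / r) ^ finrank ℝ V * 8 ^ finrank ℝ X) := by
  let μ : Measure X := Measure.addHaar
  have hR : 0 < R := hr.trans_le hrR
  have hmeas : ∀ R r, MeasurableSet {z | z - s ∈ tube V R r} := fun R r =>
    (measurable_id.sub_const s) (measurableSet_tube V R r)
  have h := avg_ball μ ν hν (hmeas R r) (hmeas (2 * R) (2 * r)) (by
    intro z hz w hzw
    rw [dist_comm, dist_eq_norm] at hzw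
    have e : w - s = (z - s) + (w - z) := by abel
    refine ⟨?_, ?_⟩
    · rw [e]; linarith [norm_add_le (z - s) (w - z), hz.1]
    · rw [e]; linarith [dV_add_le V (z - s) (w - z), hz.2])
  have h2 : μ {z | z - s ∈ tube V (2 * R) (2 * r)} = μ (tube V (2 * R) (2 * r)) := by
    have : {z | z - s ∈ tube V (2 * R) (2 * r)} = (fun z => z + (-s)) ⁻¹' tube V (2 * R) (2 * r) := by
      ext z; simp [sub_eq_add_neg]
    rw [this, measure_preimage_add_right]
  rw [h2, Measure.addHaar_closedBall _ _ (by positivity)] at h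
  have h3 := vol_tube μ V (R := 2 * R) (r := 2 * r) (by positivity) (by positivity)
  have hb0 : μ (ball 0 1) ≠ 0 := (measure_ball_pos μ _ one_pos).ne'
  have hbt : μ (ball 0 1) ≠ ⊤ := measure_ball_lt_top.ne
  have hc0 : ENNReal.ofReal ((r / 2) ^ finrank ℝ X) * μ (ball 0 1) ≠ 0 :=
    mul_ne_zero (by simp; positivity) hb0
  have hct : ENNReal.ofReal ((r / 2) ^ finrank ℝ X) * μ (ball 0 1) ≠ ⊤ :=
    ENNReal.mul_ne_top ENNReal.ofReal_ne_top hbt
  rw [← ENNReal.mul_le_mul_iff_left hc0 hct]
  refine h.trans ?_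
  rw [mul_assoc]
  gcongr
  refine h3.trans (le_of_eq ?_)
  rw [← mul_assoc (ENNReal.ofReal _), ← ENNReal.ofReal_mul (by positivity)]
  congr 2
  have : 2 * R / (2 * r) = R / r := by field_simp
  rw [this, mul_assoc, ← mul_pow]
  congr 2; ring

/-- normalized surface measure, pushed to the ambient space. -/
noncomputable def sig (μ : Measure X) : Measure X :=
  ((μ.toSphere univ)⁻¹ • μ.toSphere).map Subtype.val

lemma sig_apply (μ : Measure X) [μ.IsAddHaarMeasure] [Nontrivial X] {S : Set X}
    (hS : MeasurableSet S) :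
    sig μ S = (μ (ball 0 1))⁻¹ * μ (Ioo (0 : ℝ) 1 • (S ∩ sphere 0 1)) := by
  have hd : (finrank ℝ X : ℝ≥0∞) ≠ 0 := by exact_mod_cast finrank_pos.ne'
  rw [sig, Measure.map_apply measurable_subtype_coe hS, Measure.smul_apply,
    Measure.toSphere_apply' _ (measurable_subtype_coe hS), Measure.toSphere_apply_univ,
    smul_eq_mul, Subtype.image_preimage_coe, inter_comm,
    ENNReal.mul_inv (Or.inl hd) (Or.inl (ENNReal.natCast_ne_top _)), mul_mul_mul_comm,
    ENNReal.inv_mul_cancel hd (ENNReal.natCast_ne_top _), one_mul]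

instance sig_prob (μ : Measure X) [μ.IsAddHaarMeasure] [Nontrivial X] :
    IsProbabilityMeasure (sig μ) := by
  constructor
  rw [sig, Measure.map_apply measurable_subtype_coe MeasurableSet.univ, Measure.smul_apply,
    preimage_univ, smul_eq_mul, ENNReal.inv_mul_cancel _ (measure_ne_top _ _)]
  exact Measure.measure_univ_ne_zero.mpr (Measure.toSphere_ne_zero μ)

lemma sig_norm (μ : Measure X) : ∀ᵐ s ∂(sig μ), ‖s‖ = 1 := by
  rw [sig, ae_map_iff measurable_subtype_coe.aemeasurable
    (measurableSet_eq_fun measurable_norm measurable_const)]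
  exact Filter.Eventually.of_forall fun s => by simp

lemma sig_dV (μ : Measure X) [μ.IsAddHaarMeasure] [Nontrivial X] (V : Submodule ℝ X) {r : ℝ}
    (hr : 0 < r) :
    sig μ {x | dV V x ≤ r} ≤ ENNReal.ofReal ((1 / r) ^ finrank ℝ V * (2 * r) ^ finrank ℝ X) := by
  have hb0 : μ (ball 0 1) ≠ 0 := (measure_ball_pos μ _ one_pos).ne'
  have hbt : μ (ball 0 1) ≠ ⊤ := measure_ball_lt_top.ne
  rw [sig_apply μ (measurableSet_le (continuous_dV V).measurable measurable_const)]
  have hsub : Ioo (0 : ℝ) 1 • ({x | dV V x ≤ r} ∩ sphere 0 1) ⊆ tube V 1 r := by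
    rintro _ ⟨t, ht, x, hx, rfl⟩
    have hx1 : ‖x‖ = 1 := by simpa using hx.2
    have hx2 : dV V x ≤ r := hx.1
    refine ⟨?_, ?_⟩
    · simp only [norm_smul, hx1, Real.norm_eq_abs, abs_of_pos ht.1]; linarith [ht.2]
    · simp only [dV_smul, abs_of_pos ht.1]; nlinarith [ht.1, ht.2, dV_nonneg V x]
  calc _ ≤ (μ (ball 0 1))⁻¹ * μ (tube V 1 r) := by gcongr
    _ ≤ (μ (ball 0 1))⁻¹ * (ENNReal.ofReal ((1 / r) ^ finrank ℝ V * (2 * r) ^ finrank ℝ X) *
      μ (ball 0 1)) := by gcongr; exact vol_tube μ V hr one_pos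
    _ = _ := by rw [mul_comm, mul_assoc, ENNReal.mul_inv_cancel hb0 hbt, mul_one]

lemma sig_ball (μ : Measure X) [μ.IsAddHaarMeasure] [Nontrivial X] (z : X) {r : ℝ}
    (hr : 0 < r) (hr1 : r ≤ 1) :
    sig μ (closedBall z r) ≤ ENNReal.ofReal (2 ^ finrank ℝ X * r ^ (finrank ℝ X - 1)) := by
  have h1 : closedBall z r ⊆ {x | dV (ℝ ∙ z) x ≤ r} := by
    intro x hx
    exact (dV_le_sub _ x (Submodule.mem_span_singleton_self z)).trans (by rwa [← dist_eq_norm])
  refine (measure_mono h1).trans ((sig_dV μ _ hr).trans (ENNReal.ofReal_le_ofReal ?_))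
  have h2 : finrank ℝ (ℝ ∙ z) ≤ 1 := by
    simpa using finrank_span_le_card ({z} : Set X)
  have h3 : (1 / r) ^ finrank ℝ (ℝ ∙ z) ≤ (1 / r) ^ 1 :=
    pow_le_pow_right₀ (by rw [le_div_iff₀ hr]; linarith) h2
  obtain ⟨n, hn⟩ : ∃ n, finrank ℝ X = n + 1 := ⟨finrank ℝ X - 1, by
    have : 0 < finrank ℝ X := finrank_pos
    omega⟩
  calc _ ≤ (1 / r) ^ 1 * (2 * r) ^ finrank ℝ X := by gcongr
    _ = _ := by rw [hn]; simp only [Nat.add_sub_cancel, mul_pow, pow_succ]; field_simp

lemma sig_map (μ : Measure X) [μ.IsAddHaarMeasure] [Nontrivial X] (f : X ≃ₗᵢ[ℝ] X)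
    (hf : MeasurePreserving f μ μ) {S : Set X} (hS : MeasurableSet S) :
    sig μ (f ⁻¹' S) = sig μ S := by
  rw [sig_apply μ hS, sig_apply μ (f.continuous.measurable hS)]
  congr 1
  rw [← MeasurePreserving.measure_preimage_equiv
    (f := f.toContinuousLinearEquiv.toHomeomorph.toMeasurableEquiv) hf
    (Ioo (0 : ℝ) 1 • (S ∩ sphere 0 1))]
  congr 1
  ext x
  constructor
  · rintro ⟨t, ht, y, hy, rfl⟩
    refine ⟨t, ht, f y, ⟨hy.1, by simpa using hy.2⟩, by simp⟩
  · rintro ⟨t, ht, y, hy, h⟩
    refine ⟨t, ht, f.symm y, ⟨by simpa using hy.1, by simpa using hy.2⟩, ?_⟩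
    apply f.injective
    simpa using h

end Crest.Agent.SL
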